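import Vale.Agent.P300.H232.StmtS
import Vale.Agent.P300.H903.UC
import Vale.Agent.P300.H903.Liou
import Vale.Agent.P300.H673.Entire

/-!
# P300 : the final statements as Props, and the last step (helper232)

`Chains E X` is what the curve and tower blocks deliver; with it every universal covering of `X`
fails to be holomorphically convex.
-/

open scoped Manifold ContDiff LinearAlgebra.Projectivization

namespace Vale.Agent.P300.H232

/-- What the blocks CURVE and TOWER deliver for the compact surface `X`: rational curves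
`w ↦ α i w = α' i w⁻¹` in `X`, a finite set `D` of points (the nodes), and coverings `q : Z → X`
with arbitrarily many nodes in one chain class. -/
def Chains (E : Type) [NormedAddCommGroup E] [NormedSpace ℂ E]
    (X : Type) [TopologicalSpace X] [ChartedSpace E X] : Prop :=
  ∃ (ι : Type) (α α' : ι → C(ℂ, X)) (D : Set X),
    (∀ i, ContMDiff 𝓘(ℂ) 𝓘(ℂ, E) ω (α i)) ∧
    (∀ (i : ι) (w : ℂ), w ≠ 0 → α i w = α' i w⁻¹) ∧ D.Finite ∧
    ∀ N : ℕ, ∃ (Z : Type) (_ : TopologicalSpace Z) (q : Z → X) (_ : IsCoveringMap q)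
      (z₀ : Z) (S : Finset Z), q z₀ ∈ D ∧ N ≤ S.card ∧ ∀ z ∈ S, H527.Chn α q z₀ z ∧ q z ∈ D

/-- The conclusion for the universal coverings of `X`: there is one, and none of them is
holomorphically convex. -/
def UCFails (E : Type) [NormedAddCommGroup E] [NormedSpace ℂ E]
    (X : Type) [TopologicalSpace X] [ChartedSpace E X] : Prop :=
  (∃ (V : Type) (_ : TopologicalSpace V) (_ : ChartedSpace E V) (p : V → X),
      IsUniversalCovering E p) ∧
    ∀ (V : Type) (_ : TopologicalSpace V) (_ : ChartedSpace E V) (p : V → X),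
      IsUniversalCovering E p → ¬ HolomorphicallyConvex E V

/-- **The last step.** -/
theorem ucFails_of_chains {E : Type} [NormedAddCommGroup E] [NormedSpace ℂ E]
    {X : Type} [TopologicalSpace X] [ChartedSpace E X] [IsManifold 𝓘(ℂ, E) ω X] [T2Space X]
    [ConnectedSpace X] (h : Chains E X) : UCFails E X := by
  refine ⟨?_, ?_⟩
  · obtain ⟨V, tV, cV, p, h1, h2, h3, -, -, h4, -⟩ := H903.exists_universalCover (E := E) X
    exact ⟨V, tV, cV, p, ⟨h1, h2, h3, h4⟩⟩
  · intro V _ _ p hp hc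
    obtain ⟨ι, α, α', D, hα, hinv, hD, tower⟩ := h
    have := hp.simplyConnected
    obtain ⟨y₀, -, hy⟩ := H673.not_convex_entire hα hinv hD tower hp.covering
    exact hy (hc {y₀} isCompact_singleton (Set.singleton_nonempty y₀))

/-- FALLBACK STATEMENT (hand-in `P300.ACompactSurface`) : a connected compact complex surface with
a holomorphic map to `(ℙ¹)⁵` with finite fibres. -/
def SurfaceStatement : Prop :=
  ∃ (X : Type) (_ : TopologicalSpace X) (_ : ChartedSpace (Fin 2 → ℂ) X),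
    (IsManifold 𝓘(ℂ, Fin 2 → ℂ) ω X ∧ T2Space X ∧ CompactSpace X ∧ ConnectedSpace X ∧
      ∃ F : Fin 5 → X → ℙ ℂ (Fin (1 + 1) → ℂ),
        (∀ j, IsHolomorphicToProjective (Fin 2 → ℂ) (F j)) ∧
        ∀ x : X, {y | ∀ j, F j y = F j x}.Finite) ∧
    UCFails (Fin 2 → ℂ) X

/-- FULL STATEMENT (hand-in `P300.ADisproof`). -/
def DisproofStatement : Prop :=
  ∃ (X : Type) (_ : TopologicalSpace X) (_ : ChartedSpace (Fin 2 → ℂ) X),
    (IsManifold 𝓘(ℂ, Fin 2 → ℂ) ω X ∧ T2Space X ∧ CompactSpace X ∧ ConnectedSpace X ∧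
      IsSmoothProjective (Fin 2 → ℂ) X) ∧
    UCFails (Fin 2 → ℂ) X

theorem surfaceStatement_of (h : ∃ (X : Type) (_ : TopologicalSpace X)
    (_ : ChartedSpace (Fin 2 → ℂ) X),
    (IsManifold 𝓘(ℂ, Fin 2 → ℂ) ω X ∧ T2Space X ∧ CompactSpace X ∧ ConnectedSpace X ∧
      ∃ F : Fin 5 → X → ℙ ℂ (Fin (1 + 1) → ℂ),
        (∀ j, IsHolomorphicToProjective (Fin 2 → ℂ) (F j)) ∧
        ∀ x : X, {y | ∀ j, F j y = F j x}.Finite) ∧
    Chains (Fin 2 → ℂ) X) : SurfaceStatement := by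
  obtain ⟨X, tX, cX, ⟨h1, h2, h3, h4, h5⟩, h6⟩ := h
  exact ⟨X, tX, cX, ⟨h1, h2, h3, h4, h5⟩, ucFails_of_chains h6⟩

theorem disproofStatement_of (h : ∃ (X : Type) (_ : TopologicalSpace X)
    (_ : ChartedSpace (Fin 2 → ℂ) X),
    (IsManifold 𝓘(ℂ, Fin 2 → ℂ) ω X ∧ T2Space X ∧ CompactSpace X ∧ ConnectedSpace X ∧
      IsSmoothProjective (Fin 2 → ℂ) X) ∧
    Chains (Fin 2 → ℂ) X) : DisproofStatement := by
  obtain ⟨X, tX, cX, ⟨h1, h2, h3, h4, h5⟩, h6⟩ := h
  exact ⟨X, tX, cX, ⟨h1, h2, h3, h4, h5⟩, ucFails_of_chains h6⟩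

end Vale.Agent.P300.H232
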