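import Vale.Agent.P300.H232.Stmt

/-!
# P300 : vocabulary of the fallback statement (helper232)
-/

open scoped Manifold ContDiff LinearAlgebra.Projectivization

namespace Vale.Agent.P300

/-- The map `Φ : X → ℙᴺ(ℂ)` is holomorphic: near every point of `X` it is given by homogeneous
coordinates which are holomorphic functions without common zeros. -/
def IsHolomorphicToProjective (E : Type*) [NormedAddCommGroup E]
    [NormedSpace ℂ E] {X : Type*} [TopologicalSpace X] [ChartedSpace E X] {N : ℕ}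
    (Φ : X → ℙ ℂ (Fin (N + 1) → ℂ)) : Prop :=
  ∀ x : X, ∃ (W : Set X) (s : X → Fin (N + 1) → ℂ), IsOpen W ∧ x ∈ W ∧
    ContMDiffOn 𝓘(ℂ, E) 𝓘(ℂ, Fin (N + 1) → ℂ) ω s W ∧
    ∀ y ∈ W, ∃ h : s y ≠ 0, Φ y = Projectivization.mk ℂ (s y) h

end Vale.Agent.P300
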