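import Vale.Agent.P300.H232.End

/-!
# P300 : the full statement with the Jacobian criterion inside (helper232)

`IsSmoothProjectiveVariety` is `IsSmoothProjective` with the extra clause that the image is a
nonsingular algebraic set by the Jacobian criterion.
-/

open scoped Manifold ContDiff LinearAlgebra.Projectivization

namespace Vale.Agent.P300

/-- The common kernel of the differentials at `z` of the polynomials `P ∈ S`, i.e. the kernel of
the Jacobian matrix `(∂P/∂z_b (z))`. -/
def jacobianKernel {n : ℕ} (S : Set (MvPolynomial (Fin n) ℂ)) (z : Fin n → ℂ) :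
    Submodule ℂ (Fin n → ℂ) where
  carrier := {v | ∀ P ∈ S, ∑ b, v b * MvPolynomial.eval z (MvPolynomial.pderiv b P) = 0}
  zero_mem' := fun P _ => by simp
  add_mem' := fun {v w} hv hw P hP => by
    have h1 := hv P hP
    have h2 := hw P hP
    simp only [Pi.add_apply, add_mul, Finset.sum_add_distrib, h1, h2, add_zero]
  smul_mem' := fun c v hv P hP => by
    have h1 := hv P hP
    simp only [Pi.smul_apply, smul_eq_mul, mul_assoc, ← Finset.mul_sum, h1, mul_zero]

theorem mem_jacobianKernel {n : ℕ} {S : Set (MvPolynomial (Fin n) ℂ)} {z v : Fin n → ℂ} :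
    v ∈ jacobianKernel S z ↔
      ∀ P ∈ S, ∑ b, v b * MvPolynomial.eval z (MvPolynomial.pderiv b P) = 0 := Iff.rfl

/-- `Z ⊆ ℙᴺ(ℂ)` is the set of common zeros of a set `S` of homogeneous polynomials, and at every
point of `Z` the Jacobian matrix of `S` has rank `N - d`, i.e. its kernel (the tangent space of the
cone over `Z`) has dimension `d + 1`: for `Z` of dimension `d` this is the Jacobian criterion for
the nonsingularity of `Z`. -/
def IsNonsingularAlgebraic (d : ℕ) {N : ℕ} (Z : Set (ℙ ℂ (Fin (N + 1) → ℂ))) : Prop :=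
  ∃ S : Set (MvPolynomial (Fin (N + 1)) ℂ), (∀ P ∈ S, ∃ k, P.IsHomogeneous k) ∧
    ∀ (z : Fin (N + 1) → ℂ) (hz : z ≠ 0),
      (Projectivization.mk ℂ z hz ∈ Z ↔ ∀ P ∈ S, MvPolynomial.eval z P = 0) ∧
      (Projectivization.mk ℂ z hz ∈ Z → Module.finrank ℂ (jacobianKernel S z) = d + 1)

/-- The complex manifold `X` (modelled on `E`) is the complex manifold of a nonsingular projective
variety: some injective holomorphic immersion of `X` into a projective space has as image an
algebraic set which is nonsingular of dimension `dim E` by the Jacobian criterion. -/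
def IsSmoothProjectiveVariety (E : Type*) [NormedAddCommGroup E] [NormedSpace ℂ E]
    (X : Type*) [TopologicalSpace X] [ChartedSpace E X] : Prop :=
  ∃ (N : ℕ) (Φ : X → ℙ ℂ (Fin (N + 1) → ℂ)), Function.Injective Φ ∧
    IsProjectiveImmersion E Φ ∧ IsNonsingularAlgebraic (Module.finrank ℂ E) (Set.range Φ)

theorem IsNonsingularAlgebraic.isProjectiveAlgebraic {d N : ℕ}
    {Z : Set (ℙ ℂ (Fin (N + 1) → ℂ))} (h : IsNonsingularAlgebraic d Z) :
    IsProjectiveAlgebraic Z := by
  obtain ⟨S, h1, h2⟩ := h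
  exact ⟨S, h1, fun z hz => (h2 z hz).1⟩

theorem IsSmoothProjectiveVariety.isSmoothProjective {E : Type*} [NormedAddCommGroup E]
    [NormedSpace ℂ E] {X : Type*} [TopologicalSpace X] [ChartedSpace E X]
    (h : IsSmoothProjectiveVariety E X) : IsSmoothProjective E X := by
  obtain ⟨N, Φ, h1, h2, h3⟩ := h
  exact ⟨N, Φ, h1, h2, h3.isProjectiveAlgebraic⟩

namespace H232

/-- FULL STATEMENT with the Jacobian criterion (hand-in `P300.ADisproof`, preferred form). -/
def DisproofStatementJ : Prop :=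
  ∃ (X : Type) (_ : TopologicalSpace X) (_ : ChartedSpace (Fin 2 → ℂ) X),
    (IsManifold 𝓘(ℂ, Fin 2 → ℂ) ω X ∧ T2Space X ∧ CompactSpace X ∧ ConnectedSpace X ∧
      IsSmoothProjectiveVariety (Fin 2 → ℂ) X) ∧
    UCFails (Fin 2 → ℂ) X

theorem disproofStatementJ_of (h : ∃ (X : Type) (_ : TopologicalSpace X)
    (_ : ChartedSpace (Fin 2 → ℂ) X),
    (IsManifold 𝓘(ℂ, Fin 2 → ℂ) ω X ∧ T2Space X ∧ CompactSpace X ∧ ConnectedSpace X ∧
      IsSmoothProjectiveVariety (Fin 2 → ℂ) X) ∧
    Chains (Fin 2 → ℂ) X) : DisproofStatementJ := by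
  obtain ⟨X, tX, cX, ⟨h1, h2, h3, h4, h5⟩, h6⟩ := h
  exact ⟨X, tX, cX, ⟨h1, h2, h3, h4, h5⟩, ucFails_of_chains h6⟩

theorem DisproofStatementJ.disproofStatement (h : DisproofStatementJ) : DisproofStatement := by
  obtain ⟨X, tX, cX, ⟨h1, h2, h3, h4, h5⟩, h6⟩ := h
  exact ⟨X, tX, cX, ⟨h1, h2, h3, h4, h5.isSmoothProjective⟩, h6⟩

end H232

end Vale.Agent.P300
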