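import Vale.Agent.P300.Defs
import Vale.Agent.P300.CoverDefs
import Mathlib.LinearAlgebra.Projectivization.Basic
import Mathlib.RingTheory.MvPolynomial.Homogeneous
import Mathlib.Geometry.Manifold.MFDeriv.Basic
import Mathlib.AlgebraicTopology.FundamentalGroupoid.SimplyConnected

/-!
# P300 : vocabulary of the final statements (helper232)
-/

open scoped Manifold ContDiff LinearAlgebra.Projectivization

namespace Vale.Agent.P300

/-- `Φ : X → ℙᴺ(ℂ)` is a holomorphic immersion of the complex manifold `X` (modelled on `E`):
near every point of `X` it is given by homogeneous coordinates `s` which are holomorphic functions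
without common zeros, and no nonzero tangent vector `v` is mapped by the differential of `s` to a
multiple of `s` (so that the differential of `Φ` is injective). -/
def IsProjectiveImmersion (E : Type*) [NormedAddCommGroup E] [NormedSpace ℂ E]
    {X : Type*} [TopologicalSpace X] [ChartedSpace E X] {N : ℕ}
    (Φ : X → ℙ ℂ (Fin (N + 1) → ℂ)) : Prop :=
  ∀ x : X, ∃ (W : Set X) (s : X → Fin (N + 1) → ℂ), IsOpen W ∧ x ∈ W ∧
    ContMDiffOn 𝓘(ℂ, E) 𝓘(ℂ, Fin (N + 1) → ℂ) ω s W ∧
    (∀ y ∈ W, ∃ h : s y ≠ 0, Φ y = Projectivization.mk ℂ (s y) h) ∧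
    ∀ y ∈ W, ∀ (v : TangentSpace 𝓘(ℂ, E) y) (c : ℂ),
      mfderiv 𝓘(ℂ, E) 𝓘(ℂ, Fin (N + 1) → ℂ) s y v = c • s y → v = 0

/-- The set `Z` of points of `ℙᴺ(ℂ)` is the set of common zeros of homogeneous polynomials. -/
def IsProjectiveAlgebraic {N : ℕ} (Z : Set (ℙ ℂ (Fin (N + 1) → ℂ))) : Prop :=
  ∃ S : Set (MvPolynomial (Fin (N + 1)) ℂ), (∀ P ∈ S, ∃ d, P.IsHomogeneous d) ∧
    ∀ (z : Fin (N + 1) → ℂ) (hz : z ≠ 0),
      Projectivization.mk ℂ z hz ∈ Z ↔ ∀ P ∈ S, MvPolynomial.eval z P = 0

/-- The complex manifold `X` is the complex manifold of a smooth projective variety: some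
injective holomorphic immersion of `X` into a projective space has an algebraic image (the zero
set of homogeneous polynomials). For a compact connected `X` this says that `X` is biholomorphic
to the smooth connected projective variety which is its image. -/
def IsSmoothProjective (E : Type*) [NormedAddCommGroup E] [NormedSpace ℂ E]
    (X : Type*) [TopologicalSpace X] [ChartedSpace E X] : Prop :=
  ∃ (N : ℕ) (Φ : X → ℙ ℂ (Fin (N + 1) → ℂ)), Function.Injective Φ ∧
    IsProjectiveImmersion E Φ ∧ IsProjectiveAlgebraic (Set.range Φ)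

/-- `p : V → X` is the universal covering of the complex manifold `X`, `V` being a complex
manifold and `p` a holomorphic covering map: `V` is simply connected. -/
structure IsUniversalCovering (E : Type*) [NormedAddCommGroup E] [NormedSpace ℂ E]
    {V X : Type*} [TopologicalSpace V] [ChartedSpace E V] [TopologicalSpace X] [ChartedSpace E X]
    (p : V → X) : Prop where
  isManifold : IsManifold 𝓘(ℂ, E) ω V
  t2Space : T2Space V
  simplyConnected : SimplyConnectedSpace V
  covering : IsHolomorphicCovering E p

end Vale.Agent.P300
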