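import Vale.Agent.P300.H933.Chow
import Vale.Agent.P300.H86.Chow
import Vale.Agent.P300.H232.StmtJ

/-!
# P300 : the Jacobian criterion for the image of a surface (helper232)
-/

open scoped Manifold ContDiff Topology LinearAlgebra.Projectivization
open Set Filter

namespace Vale.Agent.P300.H232

/-- the Jacobian kernel does not depend on the representative -/
theorem jacobianKernel_smul {n : ℕ} {S : Set (MvPolynomial (Fin n) ℂ)}
    (hS : ∀ P ∈ S, ∃ k, P.IsHomogeneous k) {c : ℂ} (hc : c ≠ 0) (z : Fin n → ℂ) :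
    jacobianKernel S (c • z) = jacobianKernel S z := by
  ext v
  rw [mem_jacobianKernel, mem_jacobianKernel]
  refine forall_congr' fun P => forall_congr' fun hP => ?_
  obtain ⟨k, hk⟩ := hS P hP
  have h1 : ∑ b, v b * MvPolynomial.eval (c • z) (MvPolynomial.pderiv b P) =
      c ^ (k - 1) * ∑ b, v b * MvPolynomial.eval z (MvPolynomial.pderiv b P) := by
    rw [Finset.mul_sum]
    refine Finset.sum_congr rfl fun b _ => ?_
    rw [H86.hom_eval (hk.pderiv (i := b))]
    ring
  rw [h1, mul_eq_zero]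
  exact ⟨fun h => h.resolve_left (pow_ne_zero _ hc), Or.inr⟩

/-- the Jacobian kernel at a point of the chart is the span of `F, ∂₁F, ∂₂F` -/
theorem jacobianKernel_eq {n : ℕ} {C : Set (Fin n → ℂ)} (A : H86.ProjAtlas C) (i : A.ι)
    {u : H86.W} (hu : u ∈ A.D i) :
    jacobianKernel (H86.vanish C) (A.F i u) = Submodule.span ℂ (Set.range
      ![A.F i u, fderiv ℂ (A.F i) u (Pi.single 0 1), fderiv ℂ (A.F i) u (Pi.single 1 1)]) := by
  apply le_antisymm
  · intro v hv
    exact (H86.chow C A).2 i u hu v hv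
  · rw [Submodule.span_le]
    have hdF : DifferentiableAt ℂ (A.F i) u := (A.diff i).differentiableAt ((A.openD i).mem_nhds hu)
    have hder : ∀ e : H86.W, fderiv ℂ (A.F i) u e ∈ jacobianKernel (H86.vanish C) (A.F i u) := by
      intro e P hP
      have hline : HasDerivAt (fun t : ℂ => u + t • e) e 0 := by
        simpa using ((hasDerivAt_id (0 : ℂ)).smul_const e).const_add u
      have hFl : HasDerivAt (fun t : ℂ => A.F i (u + t • e)) (fderiv ℂ (A.F i) u e) 0 := by
        have h9 : HasFDerivAt (A.F i) (fderiv ℂ (A.F i) u) (u + (0 : ℂ) • e) := by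
          rw [zero_smul, add_zero]
          exact hdF.hasFDerivAt
        exact h9.comp_hasDerivAt (0 : ℂ) hline
      have h6 := H86.hasDerivAt_eval P (fun t => A.F i (u + t • e)) (fderiv ℂ (A.F i) u e) 0
        (fun r => (hasDerivAt_pi.1 hFl) r)
      have hc : ContinuousAt (fun t : ℂ => u + t • e) 0 := hline.continuousAt
      have h7 : ∀ᶠ t in 𝓝 (0 : ℂ), MvPolynomial.eval (A.F i (u + t • e)) P = 0 := by
        have h8 : ∀ᶠ t in 𝓝 (0 : ℂ), u + t • e ∈ A.D i := by
          refine hc.eventually_mem ?_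
          rw [zero_smul, add_zero]
          exact (A.openD i).mem_nhds hu
        filter_upwards [h8] with t ht
        exact hP.2 _ (A.mem i _ ht)
      have h8 : HasDerivAt (fun t : ℂ => MvPolynomial.eval (A.F i (u + t • e)) P) 0 0 :=
        (hasDerivAt_const (0 : ℂ) (0 : ℂ)).congr_of_eventuallyEq h7
      have h9 := h6.unique h8
      simp only [zero_smul, add_zero] at h9
      exact h9
    rintro _ ⟨j, rfl⟩
    fin_cases j
    · -- Euler
      intro P hP
      obtain ⟨⟨k, hk⟩, hP2⟩ := hP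
      have h1 := hk.sum_X_mul_pderiv
      have h2 := congrArg (MvPolynomial.eval (A.F i u)) h1
      simp only [map_sum, map_mul, MvPolynomial.eval_X, map_nsmul, hP2 _ (A.mem i u hu),
        nsmul_zero] at h2
      exact h2
    · exact hder _
    · exact hder _

variable {X : Type*} [TopologicalSpace X] [ChartedSpace (Fin 2 → ℂ) X]
  [IsManifold 𝓘(ℂ, Fin 2 → ℂ) ω X] [CompactSpace X] {N : ℕ}

/-- **The image of a compact complex surface under an injective holomorphic immersion into a
projective space is a nonsingular algebraic set.** -/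
theorem isNonsingularAlgebraic_range {F : X → ℙ ℂ (Fin (N + 1) → ℂ)}
    (hinj : Function.Injective F) (hF : IsProjectiveImmersion (Fin 2 → ℂ) F) :
    IsNonsingularAlgebraic 2 (Set.range F) := by
  obtain ⟨A⟩ := Emb.nonempty_projAtlas hinj hF
  have hhom : ∀ P ∈ H86.vanish (Emb.cone F univ), ∃ k, P.IsHomogeneous k := fun P hP => hP.1
  refine ⟨H86.vanish (Emb.cone F univ), hhom, fun z hz => ⟨⟨?_, fun h => ?_⟩, ?_⟩⟩
  · rintro ⟨x, hx⟩ P hP
    exact hP.2 z ⟨hz, x, trivial, hx⟩
  · obtain ⟨_, x, _, hx⟩ := (H86.chow _ A).1 z hz h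
    exact ⟨x, hx⟩
  · rintro ⟨x, hx⟩
    obtain ⟨i, u, hu, s, hs, rfl⟩ := A.cover z ⟨hz, x, trivial, hx⟩
    rw [jacobianKernel_smul hhom hs, jacobianKernel_eq A i hu, finrank_span_eq_card (A.imm i u hu)]
    simp

/-- the Jacobian version of `IsSmoothProjective` -/
theorem isSmoothProjectiveVariety_of (h : IsSmoothProjective (Fin 2 → ℂ) X) :
    IsSmoothProjectiveVariety (Fin 2 → ℂ) X := by
  obtain ⟨N, Φ, h1, h2, -⟩ := h
  refine ⟨N, Φ, h1, h2, ?_⟩
  have h3 : Module.finrank ℂ (Fin 2 → ℂ) = 2 := by simp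
  rw [h3]
  exact isNonsingularAlgebraic_range h1 h2

/-- **The Jacobian version of the final statement.** -/
theorem DisproofStatement.toJ (h : DisproofStatement) : DisproofStatementJ := by
  obtain ⟨X, tX, cX, ⟨h1, h2, h3, h4, h5⟩, h6⟩ := h
  exact ⟨X, tX, cX, ⟨h1, h2, h3, h4, isSmoothProjectiveVariety_of h5⟩, h6⟩

end Vale.Agent.P300.H232
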